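import Vale.Agent.Lib.P089.Interface2

/-!
# P089, part E3: two active copies through the same vertex coincide
-/

namespace P089

open scoped Classical

theorem e3_walk_append {P S : Type} (nb : P → S → Option P) (x : P) (w w' : List S) :
    walk nb x (w ++ w') = (walk nb x w).bind fun y => walk nb y w' := by
  induction w generalizing x with
  | nil => rfl
  | cons s w ih =>
    simp only [List.cons_append, walk]
    cases nb x s with
    | none => rfl
    | some x' => simp only [Option.bind_some, ih]

/-- cancellation: every walk can be replaced by a reduced one -/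
theorem e3_reduce {S : Type} (Pg : PG S) (w : List S) (x z : Pg.P)
    (h : walk Pg.nb x w = some z) : ∃ w', Red w' ∧ walk Pg.nb x w' = some z := by
  induction w generalizing x with
  | nil => exact ⟨[], List.IsChain.nil, h⟩
  | cons s w ih =>
    simp only [walk] at h
    cases hs : Pg.nb x s with
    | none =>
      rw [hs] at h
      exact absurd h (by simp)
    | some x1 =>
      rw [hs, Option.bind_some] at h
      obtain ⟨w1, hr, hw1⟩ := ih x1 h
      cases w1 with
      | nil =>
        refine ⟨[s], List.IsChain.singleton s, ?_⟩
        simp only [walk, hs, Option.bind_some]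
        exact hw1
      | cons s' w2 =>
        by_cases hss : s = s'
        · subst hss
          simp only [walk, Pg.symm x s x1 hs, Option.bind_some] at hw1
          exact ⟨w2, List.IsChain.tail hr, hw1⟩
        · refine ⟨s :: s' :: w2, List.isChain_cons_cons.2 ⟨hss, hr⟩, ?_⟩
          rw [walk, hs, Option.bind_some]
          exact hw1

/-- words readable at `x` are readable at `y` -/
theorem e3_read {S : Type} [Fintype S] (Pg : PG S) {V : Type} (act : V → S → V)
    (ω : V → Option (Finset S)) (v : V) (x y : Pg.P) (hx : Active Pg act ω v x)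
    (hy : Active Pg act ω v y) (w : List S) (hw : (walk Pg.nb x w).isSome) :
    (walk Pg.nb y w).isSome := by
  induction w using List.reverseRecOn with
  | nil => rfl
  | append_singleton w s ih =>
    rw [e3_walk_append] at hw ⊢
    cases hz : walk Pg.nb x w with
    | none =>
      rw [hz] at hw
      exact absurd hw (by simp)
    | some z =>
      have h1 := ih (by rw [hz]; rfl)
      obtain ⟨u, hu⟩ := Option.isSome_iff_exists.1 h1
      rw [hz, Option.bind_some] at hw
      rw [hu, Option.bind_some]
      have h2 := hx w z hz
      have h3 := hy w u hu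
      rw [h2] at h3
      have h4 : Pg.ty z = Pg.ty u := Option.some.inj h3
      have h5 : ∀ p : Pg.P, (walk Pg.nb p [s]).isSome = (Pg.nb p s).isSome := by
        intro p
        simp only [walk]
        cases Pg.nb p s <;> rfl
      rw [h5] at hw ⊢
      have h6 : s ∈ Pg.ty z := by
        unfold PG.ty
        exact Finset.mem_filter.2 ⟨Finset.mem_univ s, hw⟩
      rw [h4] at h6
      unfold PG.ty at h6
      exact (Finset.mem_filter.1 h6).2

theorem partE3 : PartE3 := by
  intro S _ d Fm V act _ hball ω v x y hx hy
  by_contra hne
  have hlen : ∀ z, (∃ w, walk Fm.nb x w = some z) →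
      ∃ w, w.length ≤ 3 * Fm.L x ∧ walk Fm.nb x w = some z := by
    rintro z ⟨w, hw⟩
    obtain ⟨w', hr, hw'⟩ := e3_reduce Fm.toPG w x z hw
    have h1 : (walk Fm.nb x w').isSome := by rw [hw']; rfl
    have h2 := e3_read Fm.toPG act ω v x y hx hy w' h1
    have h3 := (Fm.sc x y w' hne hr h1 h2).1
    exact ⟨w', by omega, hw'⟩
  have hset : {z | ∃ w, w.length ≤ 3 * Fm.L x ∧ walk Fm.nb x w = some z} =
      (Fm.X (Fm.idx x) : Set Fm.P) := by
    ext z
    rw [Finset.mem_coe, Fm.memX]
    constructor
    · rintro ⟨w, -, hw⟩
      exact ((Fm.conn x z).2 ⟨w, hw⟩).symm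
    · intro hz
      exact hlen z ((Fm.conn x z).1 hz.symm)
  have h1 := hball (Fm.idx x) x ((Fm.memX _ _).2 rfl)
  rw [hset, Set.ncard_coe_finset] at h1
  have h2 := Finset.card_pos.2 (Fm.nonempty (Fm.idx x))
  omega

end P089
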