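import Vale.Agent.Lib.P089.E.Peel

/-!
# P089, Part E1: elements of `N` supported on one copy, the size of `Acopy`, the functional `tau`
-/

namespace P089

open scoped Classical

namespace Setup

variable (St : Setup)

theorem relEl_mem (γ : St.Gm) (n : ℕ)
    {r : {y // y ∈ St.Fm.X n} → Fin St.k → ZMod 2} (hr : r ∈ St.R n) :
    St.relEl γ n r ∈ St.N := Submodule.subset_span (Or.inl ⟨γ, n, r, hr, rfl⟩)

theorem ballFree (n : ℕ) {r : {y // y ∈ St.Fm.X n} → Fin St.k → ZMod 2} (hr : r ∈ St.R n)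
    (e : ZMod 2) : St.BallFree n (r + e • St.rs n) := by
  intro x h
  have key : ∀ e : ZMod 2, e = 0 ∨ e = 1 := by decide
  rcases key e with rfl | rfl
  · rw [zero_smul, add_zero] at h ⊢
    exact St.R_ball n r hr x h
  · rw [one_smul, add_comm] at h
    exact absurd h (St.rs_ball n r hr x)

/-- representation as a sum over different copies, with number of `rs`-terms `c` -/
def Rep (u : St.Gm →₀ (Fin St.k → ZMod 2)) (c : ℕ → ZMod 2) : Prop :=
  ∃ (J : Finset (St.Gm × ℕ))
    (r : (p : St.Gm × ℕ) → ({y // y ∈ St.Fm.X p.2} → Fin St.k → ZMod 2))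
    (e : St.Gm × ℕ → ZMod 2), (∀ p, r p ∈ St.R p.2) ∧ (∀ p, p ∉ J → r p = 0 ∧ e p = 0) ∧
      u = ∑ p ∈ J, St.relEl p.1 p.2 (r p + e p • St.rs p.2) ∧
      ∀ n, ∑ p ∈ J.filter (fun p => p.2 = n), e p = c n

variable {St}

theorem Rep.add {u u' : St.Gm →₀ (Fin St.k → ZMod 2)} {c c' : ℕ → ZMod 2} (h : St.Rep u c)
    (h' : St.Rep u' c') : St.Rep (u + u') (c + c') := by
  obtain ⟨J, r, e, h1, h2, h3, h4⟩ := h
  obtain ⟨J', r', e', h1', h2', h3', h4'⟩ := h'
  refine ⟨J ∪ J', fun p => r p + r' p, fun p => e p + e' p,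
    fun p => Submodule.add_mem _ (h1 p) (h1' p), ?_, ?_, ?_⟩
  · intro p hp
    rw [Finset.mem_union, not_or] at hp
    beta_reduce
    rw [(h2 p hp.1).1, (h2 p hp.1).2, (h2' p hp.2).1, (h2' p hp.2).2]
    exact ⟨add_zero _, add_zero _⟩
  · have h5 : ∀ p : St.Gm × ℕ, St.relEl p.1 p.2 (r p + r' p + (e p + e' p) • St.rs p.2) =
        St.relEl p.1 p.2 (r p + e p • St.rs p.2) + St.relEl p.1 p.2 (r' p + e' p • St.rs p.2) := by
      intro p
      rw [← relEl_add, add_smul]
      congr 1
      abel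
    rw [Finset.sum_congr rfl fun p _ => h5 p, Finset.sum_add_distrib, h3, h3']
    congr 1
    · refine Finset.sum_subset Finset.subset_union_left fun p _ hp => ?_
      rw [(h2 p hp).1, (h2 p hp).2, zero_smul, add_zero, relEl_zero]
    · refine Finset.sum_subset Finset.subset_union_right fun p _ hp => ?_
      rw [(h2' p hp).1, (h2' p hp).2, zero_smul, add_zero, relEl_zero]
  · intro n
    rw [Pi.add_apply, ← h4, ← h4', Finset.sum_add_distrib]
    congr 1
    · symm
      refine Finset.sum_subset (Finset.filter_subset_filter _ Finset.subset_union_left)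
        fun p hp hp' => ?_
      rw [Finset.mem_filter] at hp hp'
      exact (h2 p fun h => hp' ⟨h, hp.2⟩).2
    · symm
      refine Finset.sum_subset (Finset.filter_subset_filter _ Finset.subset_union_right)
        fun p hp hp' => ?_
      rw [Finset.mem_filter] at hp hp'
      exact (h2' p fun h => hp' ⟨h, hp.2⟩).2

theorem Rep.smul {u : St.Gm →₀ (Fin St.k → ZMod 2)} {c : ℕ → ZMod 2} (h : St.Rep u c)
    (a : ZMod 2) : St.Rep (a • u) (a • c) := by
  obtain ⟨J, r, e, h1, h2, h3, h4⟩ := h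
  refine ⟨J, fun p => a • r p, fun p => a * e p, fun p => Submodule.smul_mem _ _ (h1 p), ?_, ?_, ?_⟩
  · intro p hp
    beta_reduce
    rw [(h2 p hp).1, (h2 p hp).2]
    exact ⟨smul_zero _, mul_zero _⟩
  · rw [h3, Finset.smul_sum]
    refine Finset.sum_congr rfl fun p _ => ?_
    rw [← relEl_smul, smul_add, smul_smul]
  · intro n
    rw [Pi.smul_apply, ← h4, smul_eq_mul, Finset.mul_sum]

variable (St)

theorem rep_zero : St.Rep 0 0 :=
  ⟨∅, fun _ => 0, fun _ => 0, fun _ => Submodule.zero_mem _, fun _ _ => ⟨rfl, rfl⟩, by simp,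
    fun _ => by simp⟩

theorem rep_R (γ : St.Gm) (n : ℕ) {r : {y // y ∈ St.Fm.X n} → Fin St.k → ZMod 2}
    (hr : r ∈ St.R n) : St.Rep (St.relEl γ n r) 0 := by
  refine ⟨{(γ, n)}, Function.update (fun _ => 0) (γ, n) r, fun _ => 0, ?_, ?_, ?_, ?_⟩
  · intro p
    by_cases hp : p = (γ, n)
    · subst hp; rw [Function.update_self]; exact hr
    · rw [Function.update_of_ne hp]; exact Submodule.zero_mem _
  · intro p hp
    rw [Finset.mem_singleton] at hp
    rw [Function.update_of_ne hp]
    exact ⟨rfl, rfl⟩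
  · rw [Finset.sum_singleton, Function.update_self, zero_smul, add_zero]
  · intro m
    simp

theorem rep_rs (γ : St.Gm) (n : ℕ) : St.Rep (St.relEl γ n (St.rs n)) (Pi.single n 1) := by
  refine ⟨{(γ, n)}, fun _ => 0, Function.update (fun _ => 0) (γ, n) 1,
    fun p => Submodule.zero_mem _, ?_, ?_, ?_⟩
  · intro p hp
    rw [Finset.mem_singleton] at hp
    rw [Function.update_of_ne hp]
    exact ⟨rfl, rfl⟩
  · rw [Finset.sum_singleton, Function.update_self, one_smul, zero_add]
  · intro m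
    by_cases hm : n = m
    · subst hm
      have h : ({(γ, n)} : Finset (St.Gm × ℕ)).filter (fun p => p.2 = n) = {(γ, n)} := by
        rw [Finset.filter_singleton]; simp
      rw [h, Finset.sum_singleton, Function.update_self, Pi.single_eq_same]
    · have h : ({(γ, n)} : Finset (St.Gm × ℕ)).filter (fun p => p.2 = m) = ∅ := by
        rw [Finset.filter_singleton]; simp [hm]
      rw [h, Finset.sum_empty, Pi.single_eq_of_ne (Ne.symm hm)]

theorem rep_N {u : St.Gm →₀ (Fin St.k → ZMod 2)} (hu : u ∈ St.N) : St.Rep u 0 := by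
  unfold N at hu
  induction hu using Submodule.span_induction with
  | mem u hu =>
    rcases hu with ⟨γ, n, r, hr, rfl⟩ | ⟨γ, γ', n, rfl⟩
    · exact St.rep_R γ n hr
    · have h := (St.rep_rs γ n).add ((St.rep_rs γ' n).smul (-1))
      have h2 : (Pi.single n 1 + (-1 : ZMod 2) • Pi.single n 1 : ℕ → ZMod 2) = 0 := by
        rw [neg_one_smul, add_neg_cancel]
      rw [h2, neg_one_smul, ← sub_eq_add_neg] at h
      exact h
  | zero => exact St.rep_zero
  | add u v _ _ hu hv => simpa using hu.add hv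
  | smul c u _ hu => simpa using hu.smul c

/-- peeling of a representation -/
theorem Rep.peel {St : Setup} {u : St.Gm →₀ (Fin St.k → ZMod 2)} {c : ℕ → ZMod 2}
    (h : St.Rep u c)
    (M : Model St.Fm.toPG St.Gm (cay St.Fm.toPG)) (hM : M.base = 1) {γ : St.Gm} {n : ℕ}
    (hs : ∀ v, u v ≠ 0 → ∃ y ∈ St.Fm.X n, v = γ * St.pos n y) :
    ∃ r ∈ St.R n, ∃ e : ZMod 2, u = St.relEl γ n (r + e • St.rs n) ∧ c = Pi.single n e := by
  obtain ⟨J, r, e, h1, h2, h3, h4⟩ := h
  have key := St.peel_sum M hM J (fun p => r p + e p • St.rs p.2)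
    (fun p _ => St.ballFree p.2 (h1 p) (e p)) γ n (fun v hv => hs v (by rw [h3]; exact hv))
  -- the coefficient of `rs` vanishes at the other copies
  have he : ∀ p ∈ J, p ≠ (γ, n) → e p = 0 := by
    intro p hp hpn
    have h5 := key p hp hpn
    by_contra he
    have hk : ∀ e : ZMod 2, e ≠ 0 → e = 1 := by decide
    have h6 := hk _ he
    rw [h6, one_smul, add_comm] at h5
    refine St.rs_ball p.2 (r p) (h1 p) ⟨_, St.bs_mem p.2⟩ fun y _ => ?_
    rw [h5]
    rfl
  have hu : u = St.relEl γ n (r (γ, n) + e (γ, n) • St.rs n) := by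
    rw [h3]
    by_cases hJ : ((γ, n) : St.Gm × ℕ) ∈ J
    · rw [Finset.sum_eq_single ((γ, n) : St.Gm × ℕ)]
      · intro p hp hpn
        rw [key p hp hpn, relEl_zero]
      · intro h; exact absurd hJ h
    · rw [(h2 _ hJ).1, (h2 _ hJ).2, zero_smul, add_zero, relEl_zero]
      refine Finset.sum_eq_zero fun p hp => ?_
      rw [key p hp (fun h => hJ (h ▸ hp)), relEl_zero]
  refine ⟨r (γ, n), h1 (γ, n), e (γ, n), hu, ?_⟩
  funext m
  rw [← h4 m]
  by_cases hm : m = n
  · subst hm
    rw [Pi.single_eq_same]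
    by_cases hJ : ((γ, m) : St.Gm × ℕ) ∈ J
    · rw [Finset.sum_eq_single ((γ, m) : St.Gm × ℕ)]
      · intro p hp hpn
        exact he p (Finset.mem_filter.1 hp).1 hpn
      · intro h; exact absurd (Finset.mem_filter.2 ⟨hJ, by rfl⟩) h
    · rw [(h2 _ hJ).2]
      refine Finset.sum_eq_zero fun p hp => ?_
      exact he p (Finset.mem_filter.1 hp).1 (fun h => hJ (h ▸ (Finset.mem_filter.1 hp).1))
  · rw [Pi.single_eq_of_ne hm]
    refine Finset.sum_eq_zero fun p hp => ?_
    refine he p (Finset.mem_filter.1 hp).1 (fun h => hm ?_)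
    rw [← (Finset.mem_filter.1 hp).2, h]

theorem rel_mem (M : Model St.Fm.toPG St.Gm (cay St.Fm.toPG)) (hM : M.base = 1)
    (γ : St.Gm) (n : ℕ) (r : {y // y ∈ St.Fm.X n} → Fin St.k → ZMod 2) :
    St.relEl γ n r ∈ St.N ↔ r ∈ St.R n := by
  constructor
  · intro h
    obtain ⟨r', hr', e, h2, h3⟩ := (St.rep_N h).peel M hM (γ := γ) (n := n)
      (fun v hv => St.relEl_apply_ne _ _ _ _ hv)
    have he : e = 0 := by
      have h4 := congrFun h3 n
      rw [Pi.single_eq_same] at h4
      exact h4.symm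
    rw [he, zero_smul, add_zero] at h2
    rw [St.relEl_inj M γ n h2]
    exact hr'
  · exact fun h => St.relEl_mem γ n h

/-! ### the space of a copy -/

/-- the map from the chains of `X n` to `A` -/
noncomputable def chainMap (n : ℕ) :
    ({y // y ∈ St.Fm.X n} → Fin St.k → ZMod 2) →ₗ[ZMod 2] St.A where
  toFun r := Submodule.Quotient.mk (St.relEl 1 n r)
  map_add' r r' := by rw [relEl_add]; rfl
  map_smul' c r := by rw [relEl_smul]; rfl

theorem chainMap_single (n : ℕ) (y : {y // y ∈ St.Fm.X n}) (u : Fin St.k → ZMod 2) :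
    St.chainMap n (Pi.single y u) = Submodule.Quotient.mk (Finsupp.single (St.pos n y.1) u) := by
  change Submodule.Quotient.mk (St.relEl 1 n (Pi.single y u)) = _
  congr 1
  unfold relEl
  rw [Finset.sum_eq_single y]
  · rw [Pi.single_eq_same, one_mul]
  · intro z _ hz
    rw [Pi.single_eq_of_ne hz, Finsupp.single_zero]
  · intro h; exact absurd (Finset.mem_univ _) h

theorem ker_chainMap (M : Model St.Fm.toPG St.Gm (cay St.Fm.toPG)) (hM : M.base = 1) (n : ℕ) :
    LinearMap.ker (St.chainMap n) = St.R n := by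
  ext r
  rw [LinearMap.mem_ker, ← St.rel_mem M hM 1 n r]
  exact Submodule.Quotient.mk_eq_zero _

theorem range_chainMap (n : ℕ) : LinearMap.range (St.chainMap n) = St.Acopy n := by
  apply le_antisymm
  · rintro _ ⟨r, rfl⟩
    have hr : r = ∑ y, Pi.single y (r y) := by
      rw [Finset.univ_sum_single]
    rw [hr, map_sum]
    refine Submodule.sum_mem _ fun y _ => Submodule.subset_span ?_
    exact ⟨y.1, y.2, r y, St.chainMap_single n y (r y)⟩
  · unfold Acopy
    rw [Submodule.span_le]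
    rintro _ ⟨y, hy, u, rfl⟩
    exact ⟨Pi.single ⟨y, hy⟩ u, St.chainMap_single n ⟨y, hy⟩ u⟩

theorem finrank_Acopy (M : Model St.Fm.toPG St.Gm (cay St.Fm.toPG)) (hM : M.base = 1) (n : ℕ) :
    Module.finrank (ZMod 2) (St.Acopy n) =
      St.k * (St.Fm.X n).card - St.k * (St.Fm.X n).card / 2 := by
  have h := LinearMap.finrank_range_add_finrank_ker (St.chainMap n)
  rw [St.range_chainMap, St.ker_chainMap M hM, St.R_dim] at h
  have h2 : Module.finrank (ZMod 2) ({y // y ∈ St.Fm.X n} → Fin St.k → ZMod 2) =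
      St.k * (St.Fm.X n).card := by
    rw [Module.finrank_pi_fintype]
    simp [mul_comm]
  rw [h2] at h
  omega

instance finite_Acopy (n : ℕ) : Finite (St.Acopy n) := by
  rw [← St.range_chainMap]
  exact Set.finite_range (St.chainMap n)

theorem card_Acopy (M : Model St.Fm.toPG St.Gm (cay St.Fm.toPG)) (hM : M.base = 1) (n : ℕ) :
    Nat.card (St.Acopy n) =
      2 ^ (St.k * (St.Fm.X n).card - St.k * (St.Fm.X n).card / 2) := by
  have : Module.Finite (ZMod 2) (St.Acopy n) := Module.Finite.of_finite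
  rw [Module.natCard_eq_pow_finrank (K := ZMod 2) (V := St.Acopy n), St.finrank_Acopy M hM,
    Nat.card_zmod]

/-- the pairing with the type pattern -/
noncomputable def tyPair (n : ℕ) :
    ({y // y ∈ St.Fm.X n} → Fin St.k → ZMod 2) →ₗ[ZMod 2] ZMod 2 where
  toFun r := ∑ y, dotp (r y) (St.enc (St.Fm.ty y.1))
  map_add' r r' := by
    rw [← Finset.sum_add_distrib]
    refine Finset.sum_congr rfl fun y _ => ?_
    simp only [dotp, Pi.add_apply, add_mul, Finset.sum_add_distrib]
  map_smul' c r := by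
    simp only [dotp, Pi.smul_apply, smul_eq_mul, mul_assoc, Finset.mul_sum, RingHom.id_apply]

theorem exists_tau_chainMap (M : Model St.Fm.toPG St.Gm (cay St.Fm.toPG)) (hM : M.base = 1)
    (n : ℕ) : ∃ th : St.A →ₗ[ZMod 2] ZMod 2, ∀ r, th (St.chainMap n r) = St.tyPair n r := by
  have hker : LinearMap.ker (St.chainMap n) ≤ LinearMap.ker (St.tyPair n) := by
    rw [St.ker_chainMap M hM]
    intro r hr
    rw [LinearMap.mem_ker]
    exact St.R_tau n r hr
  obtain ⟨th, hth⟩ := LinearMap.exists_extend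
    ((Submodule.liftQ (LinearMap.ker (St.chainMap n)) (St.tyPair n) hker).comp
      (St.chainMap n).quotKerEquivRange.symm.toLinearMap)
  refine ⟨th, fun r => ?_⟩
  have h1 : (⟨St.chainMap n r, LinearMap.mem_range_self _ _⟩ :
      LinearMap.range (St.chainMap n)) =
      (St.chainMap n).quotKerEquivRange (Submodule.Quotient.mk r) := rfl
  have h2 := LinearMap.congr_fun hth
    (⟨St.chainMap n r, LinearMap.mem_range_self _ _⟩ : LinearMap.range (St.chainMap n))
  rw [LinearMap.comp_apply, LinearMap.comp_apply, h1] at h2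
  change th (St.chainMap n r) = Submodule.liftQ _ _ hker
    ((St.chainMap n).quotKerEquivRange.symm ((St.chainMap n).quotKerEquivRange
      (Submodule.Quotient.mk r))) at h2
  rw [LinearEquiv.symm_apply_apply, Submodule.liftQ_apply] at h2
  exact h2

theorem tyPair_single (n : ℕ) (y : {y // y ∈ St.Fm.X n}) (u : Fin St.k → ZMod 2) :
    St.tyPair n (Pi.single y u) = dotp u (St.enc (St.Fm.ty y.1)) := by
  change ∑ z, dotp ((Pi.single y u : {y // y ∈ St.Fm.X n} → Fin St.k → ZMod 2) z)
    (St.enc (St.Fm.ty z.1)) = _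
  rw [Finset.sum_eq_single y]
  · rw [Pi.single_eq_same]
  · intro z _ hz
    rw [Pi.single_eq_of_ne hz]
    simp [dotp]
  · intro h; exact absurd (Finset.mem_univ _) h

theorem exists_isTau (M : Model St.Fm.toPG St.Gm (cay St.Fm.toPG)) (hM : M.base = 1) (n : ℕ) :
    ∃ th, St.IsTau n th := by
  obtain ⟨th, hth⟩ := St.exists_tau_chainMap M hM n
  refine ⟨th, fun y hy u => ?_⟩
  rw [← St.tyPair_single n ⟨y, hy⟩ u, ← hth, St.chainMap_single]

theorem tau_isTau (M : Model St.Fm.toPG St.Gm (cay St.Fm.toPG)) (hM : M.base = 1) (n : ℕ) :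
    St.IsTau n (St.tau n) := by
  have h := St.exists_isTau M hM n
  unfold tau
  rw [dif_pos h]
  exact h.choose_spec

theorem tau_chainMap (M : Model St.Fm.toPG St.Gm (cay St.Fm.toPG)) (hM : M.base = 1) (n : ℕ)
    (r : {y // y ∈ St.Fm.X n} → Fin St.k → ZMod 2) :
    St.tau n (St.chainMap n r) = St.tyPair n r := by
  have hr : r = ∑ y, Pi.single y (r y) := by
    rw [Finset.univ_sum_single]
  rw [hr, map_sum, map_sum, map_sum]
  refine Finset.sum_congr rfl fun y _ => ?_
  rw [St.chainMap_single, St.tau_isTau M hM n y.1 y.2, St.tyPair_single]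

end Setup

end P089
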