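import Vale.Agent.Lib.P089.E.Pos

/-!
# P089, Part E: configurations of characters are legal; active copies are disjoint
-/

namespace P089

open scoped Classical

namespace Setup

variable (St : Setup)

theorem dec_enc {t : Finset St.S} (h : t.card ≤ St.d) : St.dec (St.enc t) = some t := by
  have h1 : ∃ t' : Finset St.S, t'.card ≤ St.d ∧ St.enc t' = St.enc t := ⟨t, h, rfl⟩
  unfold dec
  rw [dif_pos h1, St.enc_inj _ _ h1.choose_spec.1 h h1.choose_spec.2]

theorem dec_some {τ : Fin St.k → ZMod 2} {t : Finset St.S} (h : St.dec τ = some t) :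
    t.card ≤ St.d ∧ St.enc t = τ := by
  unfold dec at h
  split_ifs at h with h1
  obtain rfl := Option.some.inj h
  exact h1.choose_spec

theorem dec_eq_some_iff {τ : Fin St.k → ZMod 2} {t : Finset St.S} :
    St.dec τ = some t ↔ t.card ≤ St.d ∧ St.enc t = τ := by
  constructor
  · exact St.dec_some
  · rintro ⟨h, rfl⟩
    exact St.dec_enc h

theorem dec_ty_iff {τ : Fin St.k → ZMod 2} {y : St.Fm.P} :
    St.dec τ = some (St.Fm.ty y) ↔ τ = St.enc (St.Fm.ty y) := by
  rw [dec_eq_some_iff]
  exact ⟨fun h => h.2.symm, fun h => ⟨St.Fm.deg y, h.symm⟩⟩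

theorem chi_single (χ : St.A →ₗ[ZMod 2] ZMod 2) (v : St.Gm) (u : Fin St.k → ZMod 2) :
    χ (Submodule.Quotient.mk (Finsupp.single v u)) = dotp u (St.conf χ v) := by
  have h1 : Finsupp.single v u = ∑ i, u i • Finsupp.single v (Pi.single i (1 : ZMod 2)) := by
    simp only [Finsupp.smul_single]
    rw [← Finsupp.single_finsetSum]
    congr 1
    funext j
    simp [Finset.sum_apply, Pi.single_apply]
  have h2 : (Submodule.Quotient.mk (Finsupp.single v u) : St.A) =
      ∑ i, u i • Submodule.Quotient.mk (Finsupp.single v (Pi.single i (1 : ZMod 2))) := by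
    rw [h1]
    change St.N.mkQ _ = _
    rw [map_sum]
    rfl
  rw [h2, map_sum]
  exact Finset.sum_congr rfl fun i _ => map_smul χ _ _

theorem chi_relEl (χ : St.A →ₗ[ZMod 2] ZMod 2) (γ : St.Gm) (n : ℕ)
    (r : {y // y ∈ St.Fm.X n} → Fin St.k → ZMod 2) :
    χ (Submodule.Quotient.mk (St.relEl γ n r)) =
      ∑ y, dotp (r y) (St.conf χ (γ * St.pos n y.1)) := by
  have h2 : (Submodule.Quotient.mk (St.relEl γ n r) : St.A) =
      ∑ y, Submodule.Quotient.mk (Finsupp.single (γ * St.pos n y.1) (r y)) := by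
    unfold relEl
    change St.N.mkQ _ = _
    rw [map_sum]
    rfl
  rw [h2, map_sum]
  exact Finset.sum_congr rfl fun y _ => St.chi_single χ _ _

theorem conf_orth (χ : St.A →ₗ[ZMod 2] ZMod 2) (γ : St.Gm) (n : ℕ)
    {r : {y // y ∈ St.Fm.X n} → Fin St.k → ZMod 2} (hr : r ∈ St.R n) :
    ∑ y, ∑ i, r y i * St.conf χ (γ * St.pos n y.1) i = 0 := by
  have h1 := St.chi_relEl χ γ n r
  have h2 : (Submodule.Quotient.mk (St.relEl γ n r) : St.A) = 0 :=
    (Submodule.Quotient.mk_eq_zero _).2 (Submodule.subset_span (Or.inl ⟨γ, n, r, hr, rfl⟩))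
  rw [h2, map_zero] at h1
  exact h1.symm

/-- `Active` in terms of the configuration -/
theorem active_iff' (χ : St.A →ₗ[ZMod 2] ZMod 2) (v : St.Gm) {n : ℕ} {x : St.Fm.P}
    (hx : x ∈ St.Fm.X n) :
    Active St.Fm.toPG (cay St.Fm.toPG) (St.om χ) v x ↔
      ∀ y ∈ St.Fm.X n,
        St.conf χ (v * (St.pos n x)⁻¹ * St.pos n y) = St.enc (St.Fm.ty y) := by
  constructor
  · intro h y hy
    obtain ⟨w, hw⟩ := (St.Fm.conn x y).1 (by rw [St.idx_of_mem hx, St.idx_of_mem hy])
    have h1 := h w y hw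
    rw [St.go_pos hx hw v] at h1
    exact St.dec_ty_iff.1 h1
  · intro h w y hw
    rw [St.go_pos hx hw v]
    exact St.dec_ty_iff.2 (h y (St.mem_of_walk hx hw))

theorem active_iff (χ : St.A →ₗ[ZMod 2] ZMod 2) (γ : St.Gm) (n : ℕ) :
    Active St.Fm.toPG (cay St.Fm.toPG) (St.om χ) γ (St.bs n) ↔
      ∀ y ∈ St.Fm.X n, St.conf χ (γ * St.pos n y) = St.enc (St.Fm.ty y) := by
  rw [St.active_iff' χ γ (St.bs_mem n), St.pos_bs, inv_one, mul_one]

/-- moving along a copy does not change activity -/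
theorem active_pos (χ : St.A →ₗ[ZMod 2] ZMod 2) (γ : St.Gm) {n : ℕ} {y : St.Fm.P}
    (hy : y ∈ St.Fm.X n) :
    Active St.Fm.toPG (cay St.Fm.toPG) (St.om χ) (γ * St.pos n y) y ↔
      Active St.Fm.toPG (cay St.Fm.toPG) (St.om χ) γ (St.bs n) := by
  rw [St.active_iff' χ _ hy, St.active_iff, mul_inv_cancel_right]

/-- (E2) the configuration of a linear functional on `A` is legal -/
theorem legal (χ : St.A →ₗ[ZMod 2] ZMod 2) :
    Legal St.Fm (cay St.Fm.toPG) (St.om χ) where
  card_le _ _ h := (St.dec_some h).1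
  code v x hA := by
    set n := St.Fm.idx x with hn
    have hx : x ∈ St.Fm.X n := St.mem_X_idx x
    set γ := v * (St.pos n x)⁻¹ with hγ
    rw [St.active_iff' χ v hx] at hA
    set f : {y // y ∈ St.Fm.X n} → Fin St.k → ZMod 2 :=
      fun y => St.conf χ (γ * St.pos n y.1) - St.enc (St.Fm.ty y.1) with hf
    have h1 : ∀ r ∈ St.R n, ∑ y, ∑ i, r y i * f y i = 0 := by
      intro r hr
      have h2 := St.conf_orth χ γ n hr
      have h3 := St.R_tau n r hr
      simp only [hf, Pi.sub_apply, mul_sub, Finset.sum_sub_distrib, h2, h3, sub_zero]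
    have h4 : f ≠ 0 := by
      intro h5
      apply hA
      intro y hy
      have h6 := congrFun h5 ⟨y, hy⟩
      exact sub_eq_zero.1 h6
    have h7 := St.R_code n f h1 h4
    have h8 : matchSet St.Fm.toPG (cay St.Fm.toPG) (St.om χ) v x ⊆
        ((((Finset.univ : Finset {y // y ∈ St.Fm.X n}).filter fun y => ¬ f y ≠ 0).image
          Subtype.val : Finset St.Fm.P) : Set St.Fm.P) := by
      rintro y ⟨w, hw, h9⟩
      rw [St.go_pos hx hw v] at h9
      have h10 := St.dec_ty_iff.1 h9
      rw [Finset.mem_coe, Finset.mem_image]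
      refine ⟨⟨y, St.mem_of_walk hx hw⟩, ?_, rfl⟩
      rw [Finset.mem_filter]
      refine ⟨Finset.mem_univ _, ?_⟩
      rw [not_not]
      exact sub_eq_zero.2 h10
    have h11 := Set.ncard_le_ncard h8 (Finset.finite_toSet _)
    rw [Set.ncard_coe_finset] at h11
    have h12 := Finset.card_image_le (s := (Finset.univ : Finset {y // y ∈ St.Fm.X n}).filter
      fun y => ¬ f y ≠ 0) (f := Subtype.val)
    have h13 := Finset.card_filter_add_card_filter_not
      (s := (Finset.univ : Finset {y // y ∈ St.Fm.X n})) (fun y => f y ≠ 0)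
    rw [Finset.card_univ, Fintype.card_coe] at h13
    omega

/-- (E3) there is at most one active copy through a vertex -/
theorem active_unique {ω : St.Gm → Option (Finset St.S)}
    (hd : ∀ n, 2 * (St.Fm.X n).card ≤ St.Fm.darts (St.Fm.X n) + 1) {v : St.Gm} {x y : St.Fm.P}
    (hx : Active St.Fm.toPG (cay St.Fm.toPG) ω v x)
    (hy : Active St.Fm.toPG (cay St.Fm.toPG) ω v y) : x = y := by
  by_contra hne
  have hX : ∀ y, y ∈ St.Fm.X (St.Fm.idx x) ↔ ∃ w, walk St.Fm.nb x w = some y := by
    intro y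
    rw [St.Fm.memX, ← St.Fm.conn]
    exact eq_comm
  obtain ⟨w, h1, h2, h3⟩ := exists_long St.Fm.toPG hX (hd _)
  have h4 : ∀ (w : List St.S) (v : St.Gm) (x y : St.Fm.P),
      Active St.Fm.toPG (cay St.Fm.toPG) ω v x → Active St.Fm.toPG (cay St.Fm.toPG) ω v y →
      (walk St.Fm.nb x w).isSome → (walk St.Fm.nb y w).isSome := by
    intro w
    induction w with
    | nil => intro v x y _ _ _; rfl
    | cons s w ih =>
      intro v x y hx hy h
      have h5 : St.Fm.ty x = St.Fm.ty y :=
        Option.some.inj ((hx [] x rfl).symm.trans (hy [] y rfl))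
      cases hxs : St.Fm.nb x s with
      | none =>
        rw [walk_cons, hxs] at h
        exact absurd h (by simp)
      | some x' =>
        have h6 : s ∈ St.Fm.ty y := by
          rw [← h5]
          unfold PG.ty
          rw [Finset.mem_filter]
          exact ⟨Finset.mem_univ _, by rw [hxs]; rfl⟩
        unfold PG.ty at h6
        rw [Finset.mem_filter] at h6
        obtain ⟨y', hys⟩ := Option.isSome_iff_exists.1 h6.2
        rw [walk_cons_some hxs] at h
        rw [walk_cons_some hys]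
        refine ih (cay St.Fm.toPG v s) x' y' ?_ ?_ h
        · intro w' q hq
          exact hx (s :: w') q (by rw [walk_cons_some hxs]; exact hq)
        · intro w' q hq
          exact hy (s :: w') q (by rw [walk_cons_some hys]; exact hq)
  have h5 := (St.Fm.sc x y w hne h1 h2 (h4 w v x y hx hy h2)).1
  omega

end Setup

end P089
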