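import Vale.Agent.Lib.P089.Interface2
import Vale.Agent.Lib.P089.E.E1
import Vale.Agent.Lib.P089.E.Legal

/-!
# P089, Part E: assembly
-/

namespace P089

open scoped Classical

namespace Setup

variable (St : Setup)

theorem active_iff_om (ω : St.Gm → Option (Finset St.S)) (γ : St.Gm) (n : ℕ) (y : St.Fm.P)
    (hy : y ∈ St.Fm.X n) :
    Active St.Fm.toPG (cay _) ω (γ * St.pos n y) y ↔
      ∀ z ∈ St.Fm.X n, ω (γ * St.pos n z) = some (St.Fm.ty z) := by
  have hpos : ∀ w z, walk St.Fm.nb y w = some z →
      go (cay St.Fm.toPG) (γ * St.pos n y) w = γ * St.pos n z := by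
    intro w z hw
    rw [go_cay, mul_assoc, St.pos_walk hy hw]
  constructor
  · intro h z hz
    obtain ⟨w, hw⟩ := (St.Fm.conn y z).1 (by rw [St.idx_of_mem hy, St.idx_of_mem hz])
    rw [← hpos w z hw]
    exact h w z hw
  · intro h w z hw
    rw [hpos w z hw]
    exact h z (St.mem_of_walk hy hw)

theorem tau_iff (M : Model St.Fm.toPG St.Gm (cay St.Fm.toPG)) (hM : M.base = 1)
    (χ : St.A →ₗ[ZMod 2] ZMod 2) (γ : St.Gm) (n : ℕ) :
    (∀ z ∈ St.Fm.X n, St.om χ (γ * St.pos n z) = some (St.Fm.ty z)) ↔
      ∀ a ∈ St.Acopy n, χ (St.actA γ a) = St.tau n a := by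
  have hT := St.tau_isTau M hM n
  constructor
  · intro h
    have hle : St.Acopy n ≤ LinearMap.ker
        (χ.comp (St.actA γ : St.A →ₗ[ZMod 2] St.A) - St.tau n) := by
      unfold Acopy
      rw [Submodule.span_le]
      rintro _ ⟨y, hy, u, rfl⟩
      change χ.comp (St.actA γ : St.A →ₗ[ZMod 2] St.A) _ - St.tau n _ = 0
      rw [sub_eq_zero, hT y hy u]
      change χ (St.actA γ (Submodule.Quotient.mk (Finsupp.single (St.pos n y) u))) = _
      rw [actA_mk, shift_single, chi_single, St.dec_ty_iff.1 (h y hy)]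
    intro a ha
    have h1 := hle ha
    rw [LinearMap.mem_ker] at h1
    exact sub_eq_zero.1 h1
  · intro h z hz
    refine St.dec_ty_iff.2 ?_
    funext i
    have h1 := h (Submodule.Quotient.mk (Finsupp.single (St.pos n z) (Pi.single i 1)))
      (Submodule.subset_span ⟨z, hz, _, rfl⟩)
    rw [actA_mk, shift_single, hT z hz] at h1
    change St.conf χ (γ * St.pos n z) i = _ at h1
    rw [h1]
    unfold dotp
    rw [Finset.sum_eq_single i]
    · rw [Pi.single_eq_same, one_mul]
    · intro j _ hj
      rw [Pi.single_eq_of_ne hj, zero_mul]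
    · intro h; exact absurd (Finset.mem_univ _) h

end Setup

theorem partE : PartE := fun St M hM =>
  { rel_mem := St.rel_mem M hM
    walk_pos := fun _ _ _ _ hy h => (St.pos_walk hy h).symm
    pos_inj := fun _ _ hy _ hz h => St.pos_inj M hy hz h
    active_iff := St.active_iff_om
    legal := St.legal
    isTau := St.exists_isTau M hM
    fin := fun n => St.finite_Acopy n
    card := St.card_Acopy M hM
    tau_iff := St.tau_iff M hM }

end P089
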