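import Vale.Agent.Lib.P089.Interface2
import Vale.Agent.Lib.P089.E.E1

/-!
# P089, Part Z: the central elements `zc n`
-/

namespace P089

open scoped Classical

namespace Setup

variable (St : Setup)

theorem actA_zc (γ : St.Gm) (n : ℕ) : St.actA γ (St.zc n) = St.zc n := by
  unfold zc
  rw [actA_mk, shift_relEl, mul_one]
  refine (Submodule.Quotient.eq _).2 (Submodule.subset_span (Or.inr ⟨γ, 1, n, rfl⟩))

theorem zc_eq (n : ℕ) : St.zc n = St.chainMap n (St.rs n) := rfl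

theorem zc_mem (n : ℕ) : St.zc n ∈ St.Acopy n := by
  rw [← St.range_chainMap]
  exact ⟨St.rs n, rfl⟩

theorem zc_ne_zero (M : Model St.Fm.toPG St.Gm (cay St.Fm.toPG)) (hM : M.base = 1) (n : ℕ) :
    St.zc n ≠ 0 := by
  intro h
  have h1 : St.relEl 1 n (St.rs n) ∈ St.N := (Submodule.Quotient.mk_eq_zero _).1 h
  rw [St.rel_mem M hM] at h1
  refine St.rs_ball n _ h1 ⟨_, St.bs_mem n⟩ fun y _ => ?_
  rw [Pi.add_apply]
  funext i
  exact CharTwo.add_self_eq_zero _

theorem zc_not_mem (M : Model St.Fm.toPG St.Gm (cay St.Fm.toPG)) (hM : M.base = 1) (n m : ℕ)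
    (hnm : n ≠ m) : St.zc n ∉ St.Acopy m := by
  rw [← St.range_chainMap]
  rintro ⟨f, hf⟩
  have h1 : St.relEl 1 m f - St.relEl 1 n (St.rs n) ∈ St.N := (Submodule.Quotient.eq _).1 hf
  have h2 := (St.rep_N h1).add (St.rep_rs 1 n)
  rw [sub_add_cancel, zero_add] at h2
  obtain ⟨r, _, e, _, h3⟩ := h2.peel M hM (γ := 1) (n := m)
    (fun v hv => St.relEl_apply_ne _ _ _ _ hv)
  have h4 := congrFun h3 n
  rw [Pi.single_eq_same, Pi.single_eq_of_ne hnm] at h4
  exact absurd h4 (by decide)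

theorem tau_zc (M : Model St.Fm.toPG St.Gm (cay St.Fm.toPG)) (hM : M.base = 1) (n : ℕ) :
    St.tau n (St.zc n) = 0 := by
  rw [zc_eq, St.tau_chainMap M hM]
  exact St.rs_tau n

end Setup

theorem partZ : PartZ := fun St M hM =>
  { inv := St.actA_zc
    mem := St.zc_mem
    tau := St.tau_zc M hM
    ne_zero := St.zc_ne_zero M hM
    not_mem := St.zc_not_mem M hM }

end P089
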