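import Vale.Agent.Lib.P089.E.Tau

/-!
# P089, Part E: the finite space `Acopy n`, from the peeling statement
-/

namespace P089

open scoped Classical

namespace Setup

variable (St : Setup)

/-- `relEl` as a linear map to `A` -/
noncomputable def relA (γ : St.Gm) (n : ℕ) :
    ({y // y ∈ St.Fm.X n} → Fin St.k → ZMod 2) →ₗ[ZMod 2] St.A where
  toFun r := Submodule.Quotient.mk (St.relEl γ n r)
  map_add' r r' := by
    rw [← Submodule.Quotient.mk_add]
    congr 1
    unfold relEl
    rw [← Finset.sum_add_distrib]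
    exact Finset.sum_congr rfl fun y _ => by rw [Pi.add_apply, Finsupp.single_add]
  map_smul' c r := by
    rw [RingHom.id_apply, ← Submodule.Quotient.mk_smul]
    congr 1
    unfold relEl
    rw [Finset.smul_sum]
    exact Finset.sum_congr rfl fun y _ => by rw [Pi.smul_apply, Finsupp.smul_single]

theorem relA_apply (γ : St.Gm) (n : ℕ) (r : {y // y ∈ St.Fm.X n} → Fin St.k → ZMod 2) :
    St.relA γ n r = Submodule.Quotient.mk (St.relEl γ n r) := rfl

theorem relEl_single (γ : St.Gm) (n : ℕ) (y : {y // y ∈ St.Fm.X n}) (u : Fin St.k → ZMod 2) :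
    St.relEl γ n (Pi.single y u) = Finsupp.single (γ * St.pos n y.1) u := by
  unfold relEl
  rw [Finset.sum_eq_single y]
  · rw [Pi.single_eq_same]
  · intro z _ hz
    rw [Pi.single_eq_of_ne hz, Finsupp.single_zero]
  · intro h
    exact absurd (Finset.mem_univ _) h

theorem range_relA (n : ℕ) : LinearMap.range (St.relA 1 n) = St.Acopy n := by
  refine le_antisymm ?_ ?_
  · rintro _ ⟨r, rfl⟩
    rw [relA_apply]
    have h2 : (Submodule.Quotient.mk (St.relEl 1 n r) : St.A) =
        ∑ y, Submodule.Quotient.mk (Finsupp.single (1 * St.pos n y.1) (r y)) := by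
      unfold relEl
      change St.N.mkQ _ = _
      rw [map_sum]
      rfl
    rw [h2]
    refine Submodule.sum_mem _ fun y _ => Submodule.subset_span ⟨y.1, y.2, r y, ?_⟩
    rw [one_mul]
  · unfold Acopy
    rw [Submodule.span_le]
    rintro _ ⟨y, hy, u, rfl⟩
    refine ⟨Pi.single ⟨y, hy⟩ u, ?_⟩
    rw [relA_apply, relEl_single, one_mul]

theorem ker_relA (hrel : ∀ (γ : St.Gm) (n : ℕ) (r), St.relEl γ n r ∈ St.N ↔ r ∈ St.R n) (n : ℕ) :
    LinearMap.ker (St.relA 1 n) = St.R n := by
  ext r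
  rw [LinearMap.mem_ker, relA_apply, Submodule.Quotient.mk_eq_zero, hrel]

theorem fin_Acopy (n : ℕ) : Finite (St.Acopy n) := by
  rw [← St.range_relA n]
  exact Set.finite_range (St.relA 1 n)

theorem card_Acopy_of (hrel : ∀ (γ : St.Gm) (n : ℕ) (r), St.relEl γ n r ∈ St.N ↔ r ∈ St.R n)
    (n : ℕ) : Nat.card (St.Acopy n) =
      2 ^ (St.k * (St.Fm.X n).card - St.k * (St.Fm.X n).card / 2) := by
  have h1 := (St.relA 1 n).finrank_range_add_finrank_ker
  rw [St.range_relA, St.ker_relA hrel, St.R_dim] at h1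
  have h2 : Module.finrank (ZMod 2) ({y // y ∈ St.Fm.X n} → Fin St.k → ZMod 2) =
      St.k * (St.Fm.X n).card := by
    rw [Module.finrank_pi_fintype]
    simp only [Module.finrank_fintype_fun_eq_card, Fintype.card_fin, Finset.sum_const,
      Finset.card_univ, Fintype.card_coe, smul_eq_mul]
    exact mul_comm _ _
  rw [h2] at h1
  have := St.fin_Acopy n
  have : Module.Finite (ZMod 2) (St.Acopy n) := Module.Finite.of_finite
  rw [Module.natCard_eq_pow_finrank (K := ZMod 2) (V := St.Acopy n), Nat.card_zmod]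
  congr 1
  omega

/-- the type functional on chains of a copy -/
noncomputable def tauR (n : ℕ) : ({y // y ∈ St.Fm.X n} → Fin St.k → ZMod 2) →ₗ[ZMod 2] ZMod 2 where
  toFun r := ∑ y, dotp (r y) (St.enc (St.Fm.ty y.1))
  map_add' r r' := by
    rw [← Finset.sum_add_distrib]
    refine Finset.sum_congr rfl fun y _ => ?_
    unfold dotp
    rw [← Finset.sum_add_distrib]
    exact Finset.sum_congr rfl fun i _ => by rw [Pi.add_apply, Pi.add_apply, add_mul]
  map_smul' c r := by
    rw [RingHom.id_apply, Finset.smul_sum]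
    refine Finset.sum_congr rfl fun y _ => ?_
    unfold dotp
    rw [Finset.smul_sum]
    exact Finset.sum_congr rfl fun i _ => by
      rw [Pi.smul_apply, Pi.smul_apply, smul_eq_mul, smul_eq_mul, mul_assoc]

theorem exists_tau (hrel : ∀ (γ : St.Gm) (n : ℕ) (r), St.relEl γ n r ∈ St.N ↔ r ∈ St.R n)
    (n : ℕ) : ∃ th, St.IsTau n th := by
  have h1 : St.tauR n ∈ (LinearMap.ker (St.relA 1 n)).dualAnnihilator := by
    rw [Submodule.mem_dualAnnihilator, St.ker_relA hrel]
    intro r hr
    exact St.R_tau n r hr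
  rw [← LinearMap.range_dualMap_eq_dualAnnihilator_ker] at h1
  obtain ⟨th, hth⟩ := h1
  refine ⟨th, fun y hy u => ?_⟩
  have h2 := LinearMap.congr_fun hth (Pi.single ⟨y, hy⟩ u)
  rw [LinearMap.dualMap_apply, relA_apply, relEl_single, one_mul] at h2
  rw [h2]
  change ∑ z : {y // y ∈ St.Fm.X n}, dotp ((Pi.single ⟨y, hy⟩ u : {y // y ∈ St.Fm.X n} → _) z)
    (St.enc (St.Fm.ty z.1)) = _
  rw [Finset.sum_eq_single ⟨y, hy⟩]
  · rw [Pi.single_eq_same]
  · intro z _ hz
    rw [Pi.single_eq_of_ne hz]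
    simp [dotp]
  · intro h
    exact absurd (Finset.mem_univ _) h

/-- everything except the peeling statement -/
theorem eprops_of (M : Model St.Fm.toPG St.Gm (cay St.Fm.toPG))
    (hrel : ∀ (γ : St.Gm) (n : ℕ) (r), St.relEl γ n r ∈ St.N ↔ r ∈ St.R n) : EProps St where
  rel_mem := hrel
  walk_pos _ _ _ _ hy h := (St.pos_walk hy h).symm
  pos_inj _ _ hy _ hz h := St.pos_inj M hy hz h
  active_iff ω γ n _ hy := St.active_iff_om ω γ n hy
  legal := St.legal
  isTau := St.exists_tau hrel
  fin := St.fin_Acopy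
  card := St.card_Acopy_of hrel
  tau_iff χ γ n := St.tau_iff (St.exists_tau hrel n) χ γ

end Setup

end P089
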