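import Vale.Agent.Lib.P089.E.Pos

/-!
# P089, Part E: peeling (general families of chains)
-/

namespace P089

open scoped Classical

section Walk

variable {S : Type}

theorem Model.lev_walk {Pg : PG S} {V : Type} {act : V → S → V} (M : Model Pg V act)
    {x y : Pg.P} {w : List S} (v : V)
    (h : walk Pg.nb x w = some y) : M.lev (go act v w) y = M.lev v x := by
  induction w generalizing x v with
  | nil =>
    simp only [walk, Option.some.injEq] at h
    rw [h]; rfl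
  | cons s w ih =>
    simp only [walk] at h
    cases hx : Pg.nb x s with
    | none => rw [hx] at h; simp at h
    | some x' =>
      rw [hx, Option.bind_some] at h
      rw [go_cons, ih _ h, M.lev_nb _ _ _ _ hx]

theorem Model.ctr_walk {Pg : PG S} {V : Type} {act : V → S → V} (M : Model Pg V act)
    {x y : Pg.P} {w : List S} (v : V)
    (h : walk Pg.nb x w = some y) : M.ctr (go act v w) y = M.ctr v x := by
  induction w generalizing x v with
  | nil =>
    simp only [walk, Option.some.injEq] at h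
    rw [h]; rfl
  | cons s w ih =>
    simp only [walk] at h
    cases hx : Pg.nb x s with
    | none => rw [hx] at h; simp at h
    | some x' =>
      rw [hx, Option.bind_some] at h
      rw [go_cons, ih _ h, M.ctr_nb _ _ _ _ hx]

end Walk

namespace Setup

variable (St : Setup)

theorem lev_pos (M : Model St.Fm.toPG St.Gm (cay St.Fm.toPG)) {n : ℕ} {y : St.Fm.P}
    (γ δ : St.Gm) (hy : y ∈ St.Fm.X n) :
    M.lev (δ * (γ * St.pos n y)) y = M.lev (δ * γ) (St.bs n) := by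
  have h := M.lev_walk (δ * γ) (St.wordTo_spec hy)
  rw [go_cay, mul_assoc] at h
  exact h

theorem ctr_pos (M : Model St.Fm.toPG St.Gm (cay St.Fm.toPG)) {n : ℕ} {y : St.Fm.P}
    (γ δ : St.Gm) (hy : y ∈ St.Fm.X n) :
    M.ctr (δ * (γ * St.pos n y)) y = M.ctr (δ * γ) (St.bs n) := by
  have h := M.ctr_walk (δ * γ) (St.wordTo_spec hy)
  rw [go_cay, mul_assoc] at h
  exact h

/-! ### `relEl` is linear -/

theorem relEl_add (γ : St.Gm) (n : ℕ) (r r' : {y // y ∈ St.Fm.X n} → Fin St.k → ZMod 2) :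
    St.relEl γ n (r + r') = St.relEl γ n r + St.relEl γ n r' := by
  unfold relEl
  rw [← Finset.sum_add_distrib]
  refine Finset.sum_congr rfl fun y _ => ?_
  rw [Pi.add_apply, Finsupp.single_add]

theorem relEl_smul (γ : St.Gm) (n : ℕ) (c : ZMod 2)
    (r : {y // y ∈ St.Fm.X n} → Fin St.k → ZMod 2) :
    St.relEl γ n (c • r) = c • St.relEl γ n r := by
  unfold relEl
  rw [Finset.smul_sum]
  refine Finset.sum_congr rfl fun y _ => ?_
  rw [Pi.smul_apply, Finsupp.smul_single]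

theorem relEl_zero (γ : St.Gm) (n : ℕ) : St.relEl γ n 0 = 0 := by
  unfold relEl
  simp

theorem relEl_apply (M : Model St.Fm.toPG St.Gm (cay St.Fm.toPG)) (γ : St.Gm) (n : ℕ)
    (r : {y // y ∈ St.Fm.X n} → Fin St.k → ZMod 2) (y : {y // y ∈ St.Fm.X n}) :
    St.relEl γ n r (γ * St.pos n y.1) = r y := by
  unfold relEl
  rw [Finsupp.finsetSum_apply, Finset.sum_eq_single y]
  · rw [Finsupp.single_eq_same]
  · intro z _ hz
    refine Finsupp.single_eq_of_ne ?_
    intro h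
    exact hz (Subtype.ext (St.pos_inj M z.2 y.2 (mul_left_cancel h).symm))
  · intro h; exact absurd (Finset.mem_univ _) h

theorem relEl_apply_ne (γ : St.Gm) (n : ℕ)
    (r : {y // y ∈ St.Fm.X n} → Fin St.k → ZMod 2) (v : St.Gm) (h : St.relEl γ n r v ≠ 0) :
    ∃ y ∈ St.Fm.X n, v = γ * St.pos n y := by
  by_contra hc
  push Not at hc
  apply h
  unfold relEl
  rw [Finsupp.finsetSum_apply]
  refine Finset.sum_eq_zero fun y _ => ?_
  exact Finsupp.single_eq_of_ne (hc y.1 y.2)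

theorem relEl_inj (M : Model St.Fm.toPG St.Gm (cay St.Fm.toPG)) (γ : St.Gm) (n : ℕ)
    {r r' : {y // y ∈ St.Fm.X n} → Fin St.k → ZMod 2}
    (h : St.relEl γ n r = St.relEl γ n r') : r = r' := by
  funext y
  rw [← St.relEl_apply M γ n r y, h, St.relEl_apply M]

/-- chains `f` such that no nonzero multiple structure: supported in a small ball implies `0` -/
def BallFree (n : ℕ) (f : {y // y ∈ St.Fm.X n} → Fin St.k → ZMod 2) : Prop :=
  ∀ x : {y // y ∈ St.Fm.X n},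
    (∀ y : {y // y ∈ St.Fm.X n},
      (¬ ∃ w, w.length ≤ 3 * St.Fm.L x.1 ∧ walk St.Fm.nb x.1 w = some y.1) → f y = 0) → f = 0

/-- PEELING: a sum over different copies, supported on one copy, has no other term -/
theorem peel_sum (M : Model St.Fm.toPG St.Gm (cay St.Fm.toPG)) (hM : M.base = 1)
    (J : Finset (St.Gm × ℕ))
    (r : (p : St.Gm × ℕ) → ({y // y ∈ St.Fm.X p.2} → Fin St.k → ZMod 2))
    (hr : ∀ p ∈ J, St.BallFree p.2 (r p)) (γ : St.Gm) (n : ℕ)
    (hs : ∀ v, (∑ p ∈ J, St.relEl p.1 p.2 (r p)) v ≠ 0 → ∃ y ∈ St.Fm.X n, v = γ * St.pos n y) :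
    ∀ p ∈ J, p ≠ (γ, n) → r p = 0 := by
  by_contra hcon
  push Not at hcon
  obtain ⟨p0, hp0, hp0', hp0''⟩ := hcon
  set J' := J.filter fun p => p ≠ (γ, n) ∧ r p ≠ 0 with hJ'
  have hne : J'.Nonempty := ⟨p0, by rw [hJ', Finset.mem_filter]; exact ⟨hp0, hp0', hp0''⟩⟩
  obtain ⟨c, hcJ, hcmax⟩ :=
    Finset.exists_max_image J' (fun p => M.lev (γ⁻¹ * p.1) (St.bs p.2)) hne
  rw [hJ', Finset.mem_filter] at hcJ
  obtain ⟨hcJ, hc1, hc0⟩ := hcJ
  have hbase : ∀ v y, M.lev (γ⁻¹ * γ) (St.bs n) ≤ M.lev v y := by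
    intro v y
    rw [inv_mul_cancel, ← hM]
    exact M.lev_base _ _ _
  -- another copy through `v`
  have hpt : ∀ (y : {y // y ∈ St.Fm.X c.2}) (p : St.Gm × ℕ) (y' : St.Fm.P), p ≠ c →
      M.lev (γ⁻¹ * p.1) (St.bs p.2) ≤ M.lev (γ⁻¹ * c.1) (St.bs c.2) → y' ∈ St.Fm.X p.2 →
      c.1 * St.pos c.2 y.1 = p.1 * St.pos p.2 y' →
      ∃ w, w.length ≤ 3 * St.Fm.L (M.ctr (γ⁻¹ * c.1) (St.bs c.2)) ∧
        walk St.Fm.nb (M.ctr (γ⁻¹ * c.1) (St.bs c.2)) w = some y.1 := by
    intro y p y' hpc hlev hy' hv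
    have hyy : y.1 ≠ y' := by
      intro he
      have hn : c.2 = p.2 := by
        rw [← (St.Fm.memX _ _).1 y.2, he, (St.Fm.memX _ _).1 hy']
      rw [he, hn] at hv
      exact hpc (Prod.ext (mul_right_cancel hv).symm hn.symm)
    have h1 : M.lev (γ⁻¹ * (c.1 * St.pos c.2 y.1)) y' ≤
        M.lev (γ⁻¹ * (c.1 * St.pos c.2 y.1)) y.1 := by
      rw [St.lev_pos M c.1 γ⁻¹ y.2, hv, St.lev_pos M p.1 γ⁻¹ hy']
      exact hlev
    obtain ⟨w, hw, hw'⟩ := M.peel _ _ _ hyy h1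
    rw [St.ctr_pos M c.1 γ⁻¹ y.2] at hw'
    refine ⟨w, ?_, hw'⟩
    rw [← L_walk St.Fm.toPG hw']
    exact hw
  apply hc0
  have hx0 : M.ctr (γ⁻¹ * c.1) (St.bs c.2) ∈ St.Fm.X c.2 := by
    obtain ⟨w, hw⟩ := M.ctr_conn (γ⁻¹ * c.1) (St.bs c.2)
    have h := walk_reverse St.Fm.toPG hw
    exact St.mem_of_walk (St.bs_mem c.2) h
  refine hr c hcJ ⟨_, hx0⟩ fun y hy => ?_
  by_contra hry
  apply hy
  set v := c.1 * St.pos c.2 y.1 with hv
  have hcv : St.relEl c.1 c.2 (r c) v ≠ 0 := by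
    rw [hv, St.relEl_apply M]; exact hry
  by_cases hex : ∃ p ∈ J, p ≠ c ∧ St.relEl p.1 p.2 (r p) v ≠ 0
  · obtain ⟨p, hp, hpc, hpv⟩ := hex
    obtain ⟨y', hy', hvy'⟩ := St.relEl_apply_ne _ _ _ _ hpv
    refine hpt y p y' hpc ?_ hy' hvy'
    by_cases hp1 : p = (γ, n)
    · rw [hp1]
      exact hbase _ _
    · refine hcmax p ?_
      rw [hJ', Finset.mem_filter]
      refine ⟨hp, hp1, fun h0 => hpv ?_⟩
      rw [h0, St.relEl_zero]
      rfl
  · push Not at hex
    have huv : (∑ p ∈ J, St.relEl p.1 p.2 (r p)) v ≠ 0 := by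
      rw [Finsupp.finsetSum_apply, Finset.sum_eq_single c]
      · exact hcv
      · intro p hp hpc; exact hex p hp hpc
      · intro h; exact absurd hcJ h
    obtain ⟨y', hy', hvy'⟩ := hs v huv
    exact hpt y (γ, n) y' (Ne.symm hc1) (hbase _ _) hy' hvy'

end Setup

end P089
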