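import Vale.Agent.Lib.P089.A3.Main

/-!
# P089, Part E: words in position graphs (reduction, uniqueness, long reduced words)
-/

namespace P089

open scoped Classical

section Words

variable {S : Type}

theorem walk_append {V : Type} (nb : V → S → Option V) (v : V) (w w' : List S) :
    walk nb v (w ++ w') = (walk nb v w).bind fun v' => walk nb v' w' := by
  induction w generalizing v with
  | nil => rfl
  | cons s w ih =>
    rw [List.cons_append, walk_cons, walk_cons]
    cases nb v s with
    | none => rfl
    | some v' => exact ih v'

theorem walk_append_some {V : Type} {nb : V → S → Option V} {v v' : V} {w : List S}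
    (h : walk nb v w = some v') (w' : List S) : walk nb v (w ++ w') = walk nb v' w' := by
  rw [walk_append, h]
  rfl

theorem walk_append_elim {V : Type} {nb : V → S → Option V} {v y : V} {w w' : List S}
    (h : walk nb v (w ++ w') = some y) : ∃ v', walk nb v w = some v' ∧ walk nb v' w' = some y := by
  rw [walk_append] at h
  exact Option.bind_eq_some_iff.1 h

theorem walk_single {V : Type} (nb : V → S → Option V) (v : V) (s : S) :
    walk nb v [s] = nb v s := by
  rw [walk_cons]
  cases nb v s <;> rfl

theorem walk_reverse (Pg : PG S) {x y : Pg.P} {w : List S} (h : walk Pg.nb x w = some y) :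
    walk Pg.nb y w.reverse = some x := by
  induction w generalizing x with
  | nil =>
    obtain rfl : x = y := Option.some.inj h
    rfl
  | cons s w ih =>
    obtain ⟨x', hx, hw'⟩ := walk_cons_elim h
    rw [List.reverse_cons, walk_append_some (ih hw'), walk_single]
    exact Pg.symm _ _ _ hx

theorem L_walk (Pg : PG S) {x y : Pg.P} {w : List S} (h : walk Pg.nb x w = some y) :
    Pg.L y = Pg.L x := by
  induction w generalizing x with
  | nil =>
    obtain rfl : x = y := Option.some.inj h
    rfl
  | cons s w ih =>
    obtain ⟨x', hx, hw'⟩ := walk_cons_elim h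
    rw [ih hw', Pg.L_nb _ _ _ hx]

/-- every walk can be reduced, without changing its effect on total involutive actions -/
theorem exists_red (Pg : PG S) {x y : Pg.P} {w : List S} (h : walk Pg.nb x w = some y) :
    ∃ w', Red w' ∧ w'.length ≤ w.length ∧ walk Pg.nb x w' = some y ∧
      ∀ (V : Type) (act : V → S → V), (∀ v s, act (act v s) s = v) → ∀ v,
        go act v w' = go act v w := by
  induction w generalizing x with
  | nil => exact ⟨[], List.IsChain.nil, le_rfl, h, fun _ _ _ _ => rfl⟩
  | cons s w ih =>
    obtain ⟨x', hx, hw'⟩ := walk_cons_elim h
    obtain ⟨w', h1, h2, h3, h4⟩ := ih hw'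
    match w', h1, h2, h3, h4 with
    | [], _, _, h3, h4 =>
      refine ⟨[s], List.IsChain.singleton s, by simp, ?_, ?_⟩
      · rw [walk_cons_some hx]
        exact h3
      · intro V act hinv v
        rw [go_cons, go_cons, ← h4 V act hinv (act v s)]
    | t :: w'', h1, h2, h3, h4 =>
      by_cases hst : s = t
      · subst hst
        refine ⟨w'', ?_, ?_, ?_, ?_⟩
        · exact List.IsChain.tail h1
        · simp only [List.length_cons] at h2 ⊢
          omega
        · rw [walk_cons_some (Pg.symm _ _ _ hx)] at h3
          exact h3
        · intro V act hinv v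
          rw [go_cons, ← h4 V act hinv (act v s), go_cons, hinv]
      · refine ⟨s :: t :: w'', ?_, ?_, ?_, ?_⟩
        · exact List.isChain_cons_cons.2 ⟨hst, h1⟩
        · simp only [List.length_cons] at h2 ⊢
          omega
        · rw [walk_cons_some hx]
          exact h3
        · intro V act hinv v
          rw [go_cons, go_cons act v s w, ← h4 V act hinv (act v s)]

theorem red_unique_rev (Pg : PG S) {x : Pg.P} (a b : List S) {y : Pg.P} (ha : Red a.reverse)
    (hb : Red b.reverse) (hwa : walk Pg.nb x a.reverse = some y)
    (hwb : walk Pg.nb x b.reverse = some y) (hlen : a.length + b.length < 100 * Pg.L x) :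
    a = b := by
  induction a generalizing b y with
  | nil =>
    rw [List.reverse_nil] at hwa
    obtain rfl : x = y := Option.some.inj hwa
    by_contra hne
    have h1 : b.reverse ≠ [] := by
      intro h
      exact hne (List.reverse_eq_nil_iff.1 h).symm
    have h2 := Pg.girth x b.reverse hb h1 hwb
    rw [List.length_reverse] at h2
    rw [List.length_nil] at hlen
    omega
  | cons s a ih =>
    match b, hb, hwb, hlen with
    | [], hb, hwb, hlen =>
      rw [List.reverse_nil] at hwb
      obtain rfl : x = y := Option.some.inj hwb
      have h1 : (s :: a).reverse ≠ [] := by simp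
      have h2 := Pg.girth x (s :: a).reverse ha h1 hwa
      rw [List.length_reverse] at h2
      rw [List.length_nil] at hlen
      omega
    | t :: b, hb, hwb, hlen =>
      by_cases hst : s = t
      · subst hst
        rw [List.reverse_cons] at hwa hwb ha hb
        obtain ⟨y1, h1, h2⟩ := walk_append_elim hwa
        obtain ⟨y2, h3, h4⟩ := walk_append_elim hwb
        rw [walk_single] at h2 h4
        have h5 := Pg.symm _ _ _ h2
        have h6 := Pg.symm _ _ _ h4
        obtain rfl : y1 = y2 := Option.some.inj (h5.symm.trans h6)
        rw [ih b (List.isChain_append.1 ha).1 (List.isChain_append.1 hb).1 h1 h3 (by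
          rw [List.length_cons, List.length_cons] at hlen
          omega)]
      · exfalso
        have h1 : walk Pg.nb x ((s :: a).reverse ++ (t :: b)) = some x := by
          rw [walk_append_some hwa]
          have h2 := walk_reverse Pg hwb
          rwa [List.reverse_reverse] at h2
        have h3 : Red ((s :: a).reverse ++ (t :: b)) := by
          refine List.isChain_append.2 ⟨ha, ?_, ?_⟩
          · have h4 : Red (t :: b).reverse.reverse := by
              refine List.isChain_reverse.2 ?_
              have h5 : (fun a b : S => b ≠ a) = (fun a b : S => a ≠ b) := by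
                funext a b
                exact propext ne_comm
              rw [h5]
              exact hb
            rwa [List.reverse_reverse] at h4
          · intro p hp q hq
            rw [List.reverse_cons, List.getLast?_append] at hp
            simp only [List.getLast?_singleton, Option.some_or, Option.mem_def,
              Option.some.injEq] at hp
            simp only [List.head?_cons, Option.mem_def, Option.some.injEq] at hq
            subst hp hq
            exact hst
        have h6 := Pg.girth x _ h3 (by simp) h1
        rw [List.length_append, List.length_reverse] at h6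
        omega

/-- two reduced words with the same ends whose total length is less than the girth are equal -/
theorem red_unique (Pg : PG S) {x y : Pg.P} {w w' : List S} (hw : Red w) (hw' : Red w')
    (h : walk Pg.nb x w = some y) (h' : walk Pg.nb x w' = some y)
    (hlen : w.length + w'.length < 100 * Pg.L x) : w = w' := by
  have h1 := red_unique_rev Pg (x := x) w.reverse w'.reverse (y := y)
    (by rwa [List.reverse_reverse]) (by rwa [List.reverse_reverse])
    (by rwa [List.reverse_reverse]) (by rwa [List.reverse_reverse])
    (by rwa [List.length_reverse, List.length_reverse])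
  exact List.reverse_injective h1

end Words

section Long

variable {S : Type} [Fintype S]

/-- if all reduced words readable at `x` are short then the component is a tree -/
theorem darts_tree (Pg : PG S) {x : Pg.P} {X : Finset Pg.P}
    (hX : ∀ y, y ∈ X ↔ ∃ w, walk Pg.nb x w = some y)
    (hshort : ∀ w, Red w → (walk Pg.nb x w).isSome → w.length < 50 * Pg.L x) :
    Pg.darts X + 2 ≤ 2 * X.card := by
  have hx : x ∈ X := (hX x).2 ⟨[], rfl⟩
  have h1 : ∀ y ∈ X, ∃ w, Red w ∧ walk Pg.nb x w = some y := by
    intro y hy
    obtain ⟨w, hw⟩ := (hX y).1 hy
    obtain ⟨w', h1, -, h2, -⟩ := exists_red Pg hw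
    exact ⟨w', h1, h2⟩
  choose! u hu1 hu2 using h1
  have hun : ∀ y ∈ X, ∀ w, Red w → walk Pg.nb x w = some y → w = u y := by
    intro y hy w hw1 hw2
    refine red_unique Pg hw1 (hu1 y hy) hw2 (hu2 y hy) ?_
    have h3 := hshort w hw1 (by rw [hw2]; rfl)
    have h4 := hshort (u y) (hu1 y hy) (by rw [hu2 y hy]; rfl)
    omega
  -- the last dart of the word of `y`, seen from `y`
  set T : Finset (Pg.P × S) := (X ×ˢ (Finset.univ : Finset S)).filter
    fun p => (u p.1).getLast? = some p.2 with hT
  have hTcard : T.card + 1 ≤ X.card := by
    have h2 : T.card = (T.image Prod.fst).card := by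
      rw [Finset.card_image_of_injOn]
      rintro ⟨y, s⟩ h ⟨y', s'⟩ h' (rfl : y = y')
      simp only [hT, Finset.coe_filter, Set.mem_ofPred_eq] at h h'
      rw [Option.some.inj (h.2.symm.trans h'.2)]
    have h3 : T.image Prod.fst ⊆ X.erase x := by
      intro y hy
      obtain ⟨⟨y', s⟩, h4, rfl⟩ := Finset.mem_image.1 hy
      simp only [hT, Finset.mem_filter, Finset.mem_product, Finset.mem_univ, and_true] at h4
      refine Finset.mem_erase.2 ⟨?_, h4.1⟩
      rintro rfl
      have h5 : ([] : List S) = u y' := hun y' h4.1 [] List.IsChain.nil rfl
      rw [← h5] at h4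
      simp at h4
    have h4 := Finset.card_le_card h3
    rw [Finset.card_erase_of_mem hx] at h4
    have h5 : 0 < X.card := Finset.card_pos.2 ⟨x, hx⟩
    omega
  have hcov : ((X ×ˢ (Finset.univ : Finset S)).filter fun p => ∃ y ∈ X, Pg.nb p.1 p.2 = some y) ⊆
      T ∪ T.image fun p => ((Pg.nb p.1 p.2).getD x, p.2) := by
    rintro ⟨y, s⟩ h
    simp only [Finset.mem_filter, Finset.mem_product, Finset.mem_univ, and_true] at h
    obtain ⟨hy, q, hq, hn⟩ := h
    by_cases hlast : (u y).getLast? = some s
    · refine Finset.mem_union_left _ ?_
      simp only [hT, Finset.mem_filter, Finset.mem_product, Finset.mem_univ, and_true]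
      exact ⟨hy, hlast⟩
    · refine Finset.mem_union_right _ ?_
      refine Finset.mem_image.2 ⟨(q, s), ?_, ?_⟩
      · simp only [hT, Finset.mem_filter, Finset.mem_product, Finset.mem_univ, and_true]
        refine ⟨hq, ?_⟩
        have h5 : Red (u y ++ [s]) := by
          refine List.isChain_append.2 ⟨hu1 y hy, List.IsChain.singleton s, ?_⟩
          intro a ha b hb
          simp only [List.head?_cons, Option.mem_def, Option.some.injEq] at hb
          subst hb
          rintro rfl
          exact hlast ha
        have h6 : walk Pg.nb x (u y ++ [s]) = some q := by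
          rw [walk_append_some (hu2 y hy), walk_single, hn]
        rw [← hun q hq _ h5 h6]
        simp
      · change ((Pg.nb q s).getD x, s) = (y, s)
        rw [Pg.symm _ _ _ hn]
        rfl
  have h7 := (Finset.card_le_card hcov).trans (Finset.card_union_le _ _)
  have h8 : (T.image fun p => ((Pg.nb p.1 p.2).getD x, p.2)).card ≤ T.card :=
    Finset.card_image_le
  unfold PG.darts
  omega

/-- in a component with many darts there are long reduced words from every position -/
theorem exists_long (Pg : PG S) {x : Pg.P} {X : Finset Pg.P}
    (hX : ∀ y, y ∈ X ↔ ∃ w, walk Pg.nb x w = some y) (hd : 2 * X.card ≤ Pg.darts X + 1) :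
    ∃ w, Red w ∧ (walk Pg.nb x w).isSome ∧ Pg.L x ≤ w.length := by
  by_contra hcon
  push Not at hcon
  have h1 := darts_tree Pg hX (fun w h1 h2 => by
    have := hcon w h1 h2
    omega)
  omega

end Long

end P089
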