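import Vale.Agent.Lib.P089.GDefs
import Vale.Agent.Lib.P089.E.Words

/-!
# P089, Part E: the positions of the copies in `Gam`
-/

namespace P089

open scoped Classical

theorem wd_reverse {S : Type} (Pg : PG S) (w : List S) : wd Pg w.reverse = (wd Pg w)⁻¹ := by
  refine eq_inv_of_mul_eq_one_left ?_
  induction w with
  | nil => simp [wd]
  | cons s w ih =>
    rw [List.reverse_cons, wd_append, wd_cons, wd_cons, wd_nil, mul_one, mul_assoc,
      ← mul_assoc (gen Pg s), gen_mul_gen, one_mul, ih]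

theorem wd_eq_of_walk {S : Type} (Pg : PG S) {x y : Pg.P} {w w' : List S}
    (h : walk Pg.nb x w = some y) (h' : walk Pg.nb x w' = some y) : wd Pg w = wd Pg w' := by
  have h1 : wd Pg (w ++ w'.reverse) = 1 := by
    refine wd_closed Pg (x := x) ?_
    rw [walk_append_some h]
    exact walk_reverse Pg h'
  rw [wd_append, wd_reverse] at h1
  exact mul_inv_eq_one.1 h1

namespace Setup

variable (St : Setup)

theorem bs_mem (n : ℕ) : St.bs n ∈ St.Fm.X n := (St.Fm.nonempty n).choose_spec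

theorem idx_of_mem {n : ℕ} {y : St.Fm.P} (h : y ∈ St.Fm.X n) : St.Fm.idx y = n :=
  (St.Fm.memX n y).1 h

theorem mem_X_idx (y : St.Fm.P) : y ∈ St.Fm.X (St.Fm.idx y) := (St.Fm.memX _ y).2 rfl

theorem wordTo_spec {n : ℕ} {y : St.Fm.P} (h : y ∈ St.Fm.X n) :
    walk St.Fm.nb (St.bs n) (St.wordTo n y) = some y := by
  have h1 : ∃ w, walk St.Fm.nb (St.bs n) w = some y :=
    (St.Fm.conn _ _).1 (by rw [St.idx_of_mem h, St.idx_of_mem (St.bs_mem n)])
  unfold wordTo
  rw [dif_pos h1]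
  exact h1.choose_spec

theorem idx_walk {y y' : St.Fm.P} {w : List St.S} (h : walk St.Fm.nb y w = some y') :
    St.Fm.idx y' = St.Fm.idx y := ((St.Fm.conn y y').2 ⟨w, h⟩).symm

theorem mem_of_walk {n : ℕ} {y y' : St.Fm.P} {w : List St.S} (hy : y ∈ St.Fm.X n)
    (h : walk St.Fm.nb y w = some y') : y' ∈ St.Fm.X n :=
  (St.Fm.memX n y').2 ((St.idx_walk h).trans (St.idx_of_mem hy))

theorem pos_walk {n : ℕ} {y y' : St.Fm.P} {w : List St.S} (hy : y ∈ St.Fm.X n)
    (h : walk St.Fm.nb y w = some y') : St.pos n y' = St.pos n y * wd St.Fm.toPG w := by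
  unfold pos
  rw [← wd_append]
  refine wd_eq_of_walk St.Fm.toPG (x := St.bs n) (St.wordTo_spec (St.mem_of_walk hy h)) ?_
  rw [walk_append_some (St.wordTo_spec hy)]
  exact h

theorem pos_bs (n : ℕ) : St.pos n (St.bs n) = 1 :=
  wd_closed St.Fm.toPG (St.wordTo_spec (St.bs_mem n))

theorem pos_eq_go {n : ℕ} {y : St.Fm.P} (γ : St.Gm) :
    γ * St.pos n y = go (cay St.Fm.toPG) γ (St.wordTo n y) := (go_cay _ _ _).symm

theorem pos_inj (M : Model St.Fm.toPG St.Gm (cay St.Fm.toPG)) {n : ℕ} {y y' : St.Fm.P}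
    (hy : y ∈ St.Fm.X n) (hy' : y' ∈ St.Fm.X n) (h : St.pos n y = St.pos n y') : y = y' := by
  obtain ⟨w, hw⟩ := (St.Fm.conn y y').1 (by rw [St.idx_of_mem hy, St.idx_of_mem hy'])
  have h1 := St.pos_walk hy hw
  rw [← h] at h1
  have h2 : go (cay St.Fm.toPG) (St.pos n y) w = St.pos n y := by
    rw [go_cay, ← h1]
  exact ((M.full _ y w y' hw).1 h2).symm

/-- the copy through `v` with position `y` is a left translate of the copy at `1` -/
theorem go_pos {n : ℕ} {y y' : St.Fm.P} {w : List St.S} (hy : y ∈ St.Fm.X n)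
    (h : walk St.Fm.nb y w = some y') (v : St.Gm) :
    go (cay St.Fm.toPG) v w = v * (St.pos n y)⁻¹ * St.pos n y' := by
  rw [go_cay, St.pos_walk hy h]
  group

end Setup

end P089
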