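import Vale.Agent.Lib.P089.E.Legal
import Vale.Agent.Lib.P089.Interface2

/-!
# P089, Part E: active copies in terms of the type functional
-/

namespace P089

open scoped Classical

namespace Setup

variable (St : Setup)

theorem active_iff_om
    (ω : St.Gm → Option (Finset St.S)) (γ : St.Gm) (n : ℕ) {y : St.Fm.P}
    (hy : y ∈ St.Fm.X n) :
    Active St.Fm.toPG (cay St.Fm.toPG) ω (γ * St.pos n y) y ↔
      ∀ z ∈ St.Fm.X n, ω (γ * St.pos n z) = some (St.Fm.ty z) := by
  constructor
  · intro h z hz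
    obtain ⟨w, hw⟩ := (St.Fm.conn y z).1 (by rw [St.idx_of_mem hy, St.idx_of_mem hz])
    have h1 := h w z hw
    rw [St.go_pos hy hw, mul_inv_cancel_right] at h1
    exact h1
  · intro h w z hw
    rw [St.go_pos hy hw, mul_inv_cancel_right]
    exact h z (St.mem_of_walk hy hw)

theorem om_iff (χ : St.A →ₗ[ZMod 2] ZMod 2) (v : St.Gm) (z : St.Fm.P) :
    St.om χ v = some (St.Fm.ty z) ↔ St.conf χ v = St.enc (St.Fm.ty z) := St.dec_ty_iff

theorem dotp_left_cancel {k : ℕ} {c c' : Fin k → ZMod 2} (h : ∀ u, dotp u c = dotp u c') :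
    c = c' := by
  funext i
  have h1 := h (Pi.single i 1)
  simpa [dotp, Pi.single_apply] using h1

theorem tau_spec {n : ℕ} (h : ∃ th, St.IsTau n th) : St.IsTau n (St.tau n) := by
  unfold tau
  rw [dif_pos h]
  exact h.choose_spec

theorem tau_iff {n : ℕ} (h : ∃ th, St.IsTau n th) (χ : St.A →ₗ[ZMod 2] ZMod 2) (γ : St.Gm) :
    (∀ z ∈ St.Fm.X n, St.om χ (γ * St.pos n z) = some (St.Fm.ty z)) ↔
      ∀ a ∈ St.Acopy n, χ (St.actA γ a) = St.tau n a := by
  have hgen : ∀ z u, χ (St.actA γ (Submodule.Quotient.mk (Finsupp.single (St.pos n z) u))) =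
      dotp u (St.conf χ (γ * St.pos n z)) := by
    intro z u
    rw [actA_mk, shift_single, chi_single]
  constructor
  · intro h1 a ha
    have h2 : St.Acopy n ≤ LinearMap.eqLocus (χ.comp (St.actA γ : St.A →ₗ[ZMod 2] St.A))
        (St.tau n) := by
      unfold Acopy
      rw [Submodule.span_le]
      rintro _ ⟨z, hz, u, rfl⟩
      change χ (St.actA γ (Submodule.Quotient.mk (Finsupp.single (St.pos n z) u))) =
        St.tau n (Submodule.Quotient.mk (Finsupp.single (St.pos n z) u))
      rw [hgen, St.tau_spec h z hz u, (St.om_iff χ _ z).1 (h1 z hz)]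
    exact h2 ha
  · intro h1 z hz
    rw [St.om_iff]
    refine dotp_left_cancel fun u => ?_
    rw [← hgen, ← St.tau_spec h z hz u]
    exact h1 _ (Submodule.subset_span ⟨z, hz, u, rfl⟩)

end Setup

end P089
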